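import Crest.Agent.X212.Lix26.Defs
import Crest.Agent.X212.Rr71.Mov
import Crest.Agent.X212.Inn6.Main
import Crest.Agent.X212.Kd42.Main
import Crest.Agent.X212.Num57.Nb

/-!
# Row 212, RF-LIX (helper64): two objects inside a lens wall with the same limit
-/

set_option autoImplicit false
set_option linter.unusedSectionVars false
noncomputable section
open scoped Manifold ContDiff Topology
open MeasureTheory Set Function Filter

namespace Crest.Agent.X212.Dif64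
open An M Nd18 Rdc90 Rf65 G75 Ins26 Kl48 Lix26
open An.Job (Sol)

section job
variable {Wi : Type} {X : Mf 4} {A κ lam : Type} [Fintype A] [Fintype κ] [Fintype lam]
  [DecidableEq lam] {M : Mark X A κ} {W : World M} {N : ML M lam} {Λ : Lns W N}
  {A' h : Type} [Fintype A'] [DecidableEq A'] [Fintype h] {r n : ℕ}
  {J : Job Wi Λ A' h r n} {c : M.Cl} {δ : ℝ} {y : J.Obc c} {ρ : Reg A} {σ : Cel A'} {q : Wi →₀ ℝ}

/-- solutions decay on every piece -/
theorem go_sol {sh : Set A'} (hL : LocP J sh) (hd : DecAt J c δ) (hσ : σ ∈ J.𝒦) (hy : Sol σ q y) :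
    (∀ ρ ∈ Pc c, Go δ y {ρ}) ∧ ∀ a ∈ cylW c, ∀ b, Bs (J.xs a).D (y.β a b) := by
  have go : Go δ y (Pc c) := (hd _ _ q y hσ
    (hL.pok _ hσ c _ _ ∅ (fun _ => id) subset_rfl) ⟨hy.cell, hy.inf, hy.sol.toAdm,
      fun x hx => (hx (mem_un.2 (Cyl58.exists_pc W.toCaps x))).elim, fun x _ => hy.sol.D x,
      fun x _ => hy.sol.C x, hy.sol.S, fun _ k => k.1.elim, fun a b ha _ => hy.lim a b ha,
      fun a ha b _ => hy.crit a ha b, hy.int.integrableOn⟩).1
  refine ⟨fun ρ k => ?_, fun a k b => ?_⟩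
  · have e : EdP c {ρ} ⊆ EdP c (Pc c) := fun _ ⟨π, a, b⟩ => ⟨π, a ▸ k, b⟩
    exact ⟨go.br, go.O, go.adm, fun i hi => go.bs i (e hi), fun i hi => go.lim i (e hi),
      hy.int.integrableOn⟩
  · have := M.con
    obtain ⟨ρ, m⟩ := (Sys.existsUnique_adj c.2 k.1 b).exists
    exact go.bs (⟨a, k⟩, b) ⟨ρ, m⟩

/-- all limits of a piece can be moved -/
theorem mov_all (hJ : J.OK) (hρ : ρ ∈ Pc c) (g : Go δ y {ρ})
    (γ : ∀ a, YC (J.xs a).Y.M κ (lam ⊕ lam)) (hγ : ∀ a ∈ cylW c, Bs (J.xs a).D (γ a)) :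
    ∃ x : J.Obc c, x.s = y.s ∧ Go δ x {ρ} ∧ ∀ a ∈ cylW c, ∀ b, ρ a = some b →
      Bs (J.xs a).D (γ a) ∧ (J.xs a).D.Eqv (γ a) (x.β a b) := by
  classical
  suffices H : ∀ T : Finset A, ∃ x : J.Obc c, x.s = y.s ∧ Go δ x {ρ} ∧ ∀ a ∈ T, a ∈ cylW c → ∀ b,
      ρ a = some b → (J.xs a).D.Eqv (γ a) (x.β a b) from
    let ⟨x, h1, h2, h3⟩ := H Finset.univ
    ⟨x, h1, h2, fun a ha b e => ⟨hγ a ha, h3 a (Finset.mem_univ a) ha b e⟩⟩
  intro T
  induction T using Finset.induction_on with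
  | empty => exact ⟨y, rfl, g, fun _ k => nomatch k⟩
  | insert a T _ ih =>
    obtain ⟨x, h1, h2, h3⟩ := ih
    by_cases k : a ∈ cylW c ∧ ∃ b, ρ a = some b
    · obtain ⟨ha, b, e⟩ := k
      obtain ⟨x', k1, k2, k3, k4⟩ := Rr71.mov hJ c a δ x ρ b _ hρ ha e h2 (hγ a ha)
      refine ⟨x', k1.trans h1, k2, fun a' m ha' b' e' => ?_⟩
      by_cases ne : a' = a
      · subst ne
        cases e.symm.trans e'
        exact k3
      · rw [k4 a' ne]
        exact h3 a' ((Finset.mem_insert.1 m).resolve_left ne) ha' b' e'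
    · refine ⟨x, h1, h2, fun a' m ha' b' e' => ?_⟩
      obtain rfl | m := Finset.mem_insert.1 m
      exacts [(k ⟨ha', b', e'⟩).elim, h3 a' m ha' b' e']

end job

variable {κ lam : Type} [Fintype κ] [Fintype lam] [DecidableEq lam] {Lm : LM κ lam}
  {S : Scene Lm} {D : S.Dat} {i : S.L} {Wi : Type} {r n : ℕ}
  {J : Job Wi (D.Λ i) (S.A ⊕ Unit) S.ls r n} {c : S.M.Cl} {δ : ℝ} {l : S.A}

/-- the inside of a broken lens wall is a piece -/
theorem hp_pc (hS : S.OK) (hl : l ∈ S.ls) (hc : l ∈ c.1) : hp l false ∈ Pc c :=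
  have := S.M.con
  Inn6.piece_hp hc fun a m ne => not_both (hS.lsi l hl a ne (c.2 m hc ne))

/-- `DifAt` for a cylindrical wall whose inside is a piece -/
theorem difAt' {sh : Set (S.A ⊕ Unit)} (hJ : J.OK) (hL : LocP J sh) (hd : DecAt J c δ)
    (hA : AddAt J c δ) (hl : l ∈ cylW c) (hπ : hp l false ∈ Pc c) : DifAt J c δ l := by
  classical
  intro σ hσ q y z z' hy e e' g g' ev
  have := S.M.con
  obtain ⟨g1, bs⟩ := go_sol hL hd hσ hy
  have ov : J.Ov σ c y.s := ⟨J.cl_dom hy.cell, hy.inf⟩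
  let c₀ : S.M.Cl := ⟨{a ∈ c.1 | S.M.pin a}, c.2.mono (sep_subset _ _)⟩
  obtain ⟨π₀, h₀, i₀⟩ := (Sys.existsUnique_inn c₀.2 (fun h => hl.2 h.2)
    fun a h => c.2 hl.1 h.1 fun k => hl.2 (k ▸ h.2)).exists
  obtain ⟨β, sg, l2, nb⟩ := Num57.exists_nb h₀ (fun a k => (h₀.bd_subset k).2) i
  have bz : Bs (J.xs l).D (z.β l false) := g.bs (⟨l, hl⟩, false) ⟨_, rfl, hp_self⟩
  let γ : ∀ a, YC (J.xs a).Y.M κ (lam ⊕ lam) := update (fun a => y.β a true) l (z.β l false)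
  have hγ : ∀ a ∈ cylW c, Bs (J.xs a).D (γ a) := fun a ha => by
    by_cases k : a = l
    · subst k; simpa only [γ, update_self] using bz
    · simpa only [γ, update_of_ne k] using bs a ha true
  have := Nonempty.intro y
  choose! f hf using fun ρ (k : ρ ∈ Pc c) => mov_all hJ k (g1 ρ k) γ hγ
  have mem : hp l false ∈ {ρ | S.In c π₀ ρ} :=
    ⟨hπ, Kd42.sub_of_inn c.2 (sep_subset _ _) h₀ i₀ hπ hp_self⟩
  have key : ∀ x : J.Obc c, x.s = y.s → Go δ x {hp l false} →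
      (J.xs l).D.Eqv (z.β l false) (x.β l false) → _ := fun x k1 k2 k3 =>
    hA σ hσ _ ov c₀ π₀ rfl h₀ β sg l2 nb (update f (hp l false) x) γ fun ρ k => by
      by_cases m : ρ = hp l false
      · subst m
        rw [update_self]
        refine ⟨k1, k2, fun a ha b hb => ?_⟩
        obtain ⟨rfl, rfl⟩ := hp_eq.1 hb
        exact ⟨hγ _ ha, by simpa only [γ, update_self] using k3⟩
      · rw [update_of_ne m]; exact hf ρ k.1
  have sm : ∀ (x : J.Obc c) (F : J.Obc c → Reg S.A → ℝ),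
      ∑ᶠ ρ ∈ {ρ | S.In c π₀ ρ}, F (update f (hp l false) x ρ) ρ =
        F x (hp l false) + ∑ᶠ ρ ∈ {ρ | S.In c π₀ ρ} \ {hp l false}, F (f ρ) ρ := fun x F => by
    conv_lhs => rw [← insert_sdiff_self_of_mem mem]
    rw [finsum_mem_insert _ (fun k => k.2 rfl) (toFinite _), update_self]
    exact congrArg _ (finsum_mem_congr rfl fun ρ k => by rw [update_of_ne k.2])
  have A := key z e g (Inn6.eqv_refl bz)
  have B := key z' e' g' ev
  simp only [sm _ (fun y ρ => y.kap (D.W.pc c ρ)), sm _ (fun y ρ => (ia δ y ρ : ℝ)),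
    sm _ (fun y ρ => (idr δ y ρ : ℝ))] at A B
  obtain ⟨a1, a2, m, a3⟩ := A
  obtain ⟨b1, b2, m', b3⟩ := B
  refine ⟨⟨m' - m, ?_⟩, ?_, ?_⟩ <;> simp only [kI] <;> push_cast <;> linarith

/-- **DIF**: two objects inside a broken lens wall with the same limit -/
theorem difAt {X : Finset S.A} {a₀ : Option S.A} {j : ℕ} {n₀ : ℤ} {T : ℝ} (H : GX J X a₀ j n₀ T)
    (hd : DecAt J c δ) (hA : AddAt J c δ) (hl : l ∈ S.ls) (hc : l ∈ c.1) : DifAt J c δ l :=
  difAt' H.ok H.loc hd hA ⟨hc, H.sc.lsp l hl⟩ (hp_pc H.sc hl hc)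

end Crest.Agent.X212.Dif64
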